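import Vale.Agent.P254j.Ops
import Vale.Agent.P254j.Pyr

/-!
P254, strong isotropic constant conjecture: joins, products, self-improvement.
-/

namespace Vale.Agent.Results.P254.Joins

open Vale.Agent.P254 (centroid isoConst IsSimplex simplex)
open Vale.Agent.P254j (IsConvexBody joinBody prodBody freeSum Cls iso_eq iso_simplex stdSimp
  partA_e iso_std_lim std_isSimplex partB partB' joinBody_body phi_join inherit Cls_main)

theorem result :
    -- (A) self-improvement: an asymptotic bound along some dimensions gives a bound in every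
    -- dimension
    (∀ Λ : ℝ, 1 ≤ Λ →
      (∀ ε : ℝ, 0 < ε → ∀ N₀ : ℕ, ∃ N, N₀ ≤ N ∧ ∀ K : Set (Fin N → ℝ), IsConvexBody K →
        isoConst K ≤ Λ * Real.exp (-1) + ε) →
      ∀ n : ℕ, 1 ≤ n → ∀ K : Set (Fin n → ℝ), IsConvexBody K →
        ∀ S : Set (Fin n → ℝ), IsSimplex S →
          isoConst K ≤ Λ ^ (((n : ℝ) + 1) / n) * isoConst S) ∧
    -- (A') the inequality of Q1 in all dimensions is equivalent to its asymptotic form
    ((∀ n : ℕ, 1 ≤ n → ∀ K : Set (Fin n → ℝ), IsConvexBody K →
        ∀ S : Set (Fin n → ℝ), IsSimplex S → isoConst K ≤ isoConst S) ↔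
      (∀ ε : ℝ, 0 < ε → ∃ N₀ : ℕ, ∀ N, N₀ ≤ N → ∀ K : Set (Fin N → ℝ), IsConvexBody K →
        isoConst K ≤ Real.exp (-1) + ε)) ∧
    -- (B) Q1 in dimension `m` implies Q1 in every smaller dimension, without and with the
    -- equality case
    (∀ m n : ℕ, 1 ≤ n → n ≤ m →
      ((∀ K : Set (Fin m → ℝ), IsConvexBody K →
          ∀ S : Set (Fin m → ℝ), IsSimplex S → isoConst K ≤ isoConst S) →
        ∀ K : Set (Fin n → ℝ), IsConvexBody K →
          ∀ S : Set (Fin n → ℝ), IsSimplex S → isoConst K ≤ isoConst S) ∧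
      ((∀ K : Set (Fin m → ℝ), IsConvexBody K →
          ∀ S : Set (Fin m → ℝ), IsSimplex S → isoConst K < isoConst S ∨ IsSimplex K) →
        ∀ K : Set (Fin n → ℝ), IsConvexBody K →
          ∀ S : Set (Fin n → ℝ), IsSimplex S → isoConst K < isoConst S ∨ IsSimplex K)) ∧
    -- (C) exact multiplicativity under joins
    (∀ m n : ℕ, ∀ K : Set (Fin m → ℝ), IsConvexBody K → ∀ L : Set (Fin n → ℝ), IsConvexBody L →
      ∀ S₁ : Set (Fin m → ℝ), IsSimplex S₁ → ∀ S₂ : Set (Fin n → ℝ), IsSimplex S₂ →
      ∀ S : Set (Fin (m + n + 1) → ℝ), IsSimplex S →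
        IsConvexBody (joinBody K L) ∧
        (isoConst (joinBody K L) / isoConst S) ^ (2 * (m + n + 1)) =
          (isoConst K / isoConst S₁) ^ (2 * m) * (isoConst L / isoConst S₂) ^ (2 * n)) ∧
    -- (D) Q1, with its equality case, is inherited by joins, and (strictly) by Cartesian products
    -- and free sums
    (∀ m n : ℕ, 1 ≤ m → 1 ≤ n → ∀ K : Set (Fin m → ℝ), IsConvexBody K →
      ∀ L : Set (Fin n → ℝ), IsConvexBody L →
      (∀ S : Set (Fin m → ℝ), IsSimplex S → isoConst K < isoConst S ∨ IsSimplex K) →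
      (∀ S : Set (Fin n → ℝ), IsSimplex S → isoConst L < isoConst S ∨ IsSimplex L) →
      (∀ S : Set (Fin (m + n + 1) → ℝ), IsSimplex S →
        isoConst (joinBody K L) < isoConst S ∨ IsSimplex (joinBody K L)) ∧
      ∀ S : Set (Fin (m + n) → ℝ), IsSimplex S →
        isoConst (prodBody K L) < isoConst S ∧
        ((∀ i, centroid K i = 0) → (∀ j, centroid L j = 0) →
          isoConst (freeSum K L) < isoConst S)) ∧
    -- (E) Q1, with its equality case, for the class generated by simplices, 1-symmetric bodies,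
    -- Musielak-Orlicz balls and bodies of revolution under affine maps, products, joins and free sums
    (∀ n : ℕ, ∀ K : Set (Fin n → ℝ), Cls K → ∀ S : Set (Fin n → ℝ), IsSimplex S →
      isoConst K < isoConst S ∨ IsSimplex K) := by
  have simp1 : ∀ {n : ℕ} {S : Set (Fin n → ℝ)}, IsSimplex S →
      Vale.Agent.P254.isoConst S = Vale.Agent.P254j.isoConst (stdSimp n) := by
    intro n S hS
    rw [iso_eq, iso_simplex hS]
  refine ⟨?_, ⟨?_, ?_⟩, ?_, ?_, ?_, ?_⟩
  · intro Λ hΛ h n hn K hK S hS
    rw [simp1 hS, iso_eq]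
    refine partA_e hΛ (fun ε hε N0 => ?_) hn hK
    obtain ⟨N, hN, hb⟩ := h ε hε N0
    exact ⟨N, hN, fun K hK => by rw [← iso_eq]; exact hb K hK⟩
  · intro h ε hε
    have hlt : Real.exp (-1) < Real.exp (-1) + ε := by linarith
    obtain ⟨N1, hN1⟩ := Filter.eventually_atTop.1 (iso_std_lim.eventually (gt_mem_nhds hlt))
    refine ⟨max 1 N1, fun N hN K hK => ?_⟩
    have := h N (le_trans (le_max_left _ _) hN) K hK (simplex N) (std_isSimplex N)
    rw [simp1 (std_isSimplex N)] at this
    exact this.trans (hN1 N (le_trans (le_max_right _ _) hN)).le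
  · intro h n hn K hK S hS
    have := partA_e (Λ := 1) le_rfl (fun ε hε N0 => by
      obtain ⟨N1, hN1⟩ := h ε hε
      exact ⟨max N0 N1, le_max_left _ _, fun K hK => by
        rw [← iso_eq, one_mul]; exact hN1 _ (le_max_right _ _) K hK⟩) hn hK
    rw [Real.one_rpow, one_mul] at this
    rw [simp1 hS, iso_eq]
    exact this
  · intro m n hn hnm
    refine ⟨?_, ?_⟩
    · induction m, hnm using Nat.le_induction with
      | base => exact fun h => h
      | succ m hm ih =>
        intro h
        apply ih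
        intro K hK S hS
        rw [simp1 hS, iso_eq]
        apply partB (by omega) _ hK
        intro J hJ
        have := h J hJ (simplex (m + 1)) (std_isSimplex _)
        rw [simp1 (std_isSimplex _), iso_eq] at this
        exact this
    · induction m, hnm using Nat.le_induction with
      | base => exact fun h => h
      | succ m hm ih =>
        intro h
        apply ih
        intro K hK S hS
        rw [simp1 hS, iso_eq]
        apply partB' (by omega) _ hK
        intro J hJ
        have := h J hJ (simplex (m + 1)) (std_isSimplex _)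
        rw [simp1 (std_isSimplex _), iso_eq] at this
        exact this
  · intro m n K hK L hL S₁ h1 S₂ h2 S h
    refine ⟨joinBody_body hK hL, ?_⟩
    rw [simp1 h1, simp1 h2, simp1 h, iso_eq, iso_eq, iso_eq]
    exact phi_join hK hL
  · intro m n hm hn K hK L hL h1 h2
    have h1' := h1 (simplex m) (std_isSimplex _)
    have h2' := h2 (simplex n) (std_isSimplex _)
    rw [simp1 (std_isSimplex _), iso_eq] at h1' h2'
    obtain ⟨a, b, c⟩ := inherit hm hn hK hL h1' h2'
    refine ⟨fun S hS => ?_, fun S hS => ⟨?_, fun c1 c2 => ?_⟩⟩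
    · rw [simp1 hS, iso_eq]; exact a
    · rw [simp1 hS, iso_eq]; exact b
    · rw [simp1 hS, iso_eq]; exact c c1 c2
  · intro n K hK S hS
    rw [simp1 hS, iso_eq]
    exact Cls_main hK

end Vale.Agent.Results.P254.Joins
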