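import Vale.Agent.P254.Main
import Vale.Agent.P254.Ext

/-!
P254, strong isotropic constant conjecture: every affine image of a convex body invariant under
coordinate permutations and sign changes has isotropic constant strictly smaller than a simplex.
-/

namespace Vale.Agent.Results.P254.OneSymmetric

open Vale.Agent.P254

theorem result (n : ℕ) (hn : 2 ≤ n) {K : Set (Fin n → ℝ)} (hK : Convex ℝ K) (hc : IsCompact K)
    (h0 : (interior K).Nonempty)
    (hs : ∀ s : Fin n → ℤˣ, ∀ x ∈ K, (fun i => ((s i : ℤ) : ℝ) * x i) ∈ K)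
    (hp : ∀ π : Equiv.Perm (Fin n), ∀ x ∈ K, (x ∘ π) ∈ K)
    (T : (Fin n → ℝ) ≃ᵃ[ℝ] (Fin n → ℝ)) {S : Set (Fin n → ℝ)} (hS : IsSimplex S) :
    isoConst (T '' K) ^ 2 ≤ ((n : ℝ) + 1) / (8 * ((n : ℝ) + 2)) ∧
      isoConst (T '' K) < isoConst S := by
  obtain ⟨h1, h2⟩ := main n hn hK hc h0 hs hp
  refine ⟨sq_affine hc h0 h1 T, ext_affine hc h0 ?_ h2 T hS⟩
  rw [simplex_vol]
  positivity

end Vale.Agent.Results.P254.OneSymmetric
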