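import Vale.Agent.P254o.OMain

/-!
P254: the strong isotropic constant conjecture for all Musielak-Orlicz balls.
-/

namespace Vale.Agent.Results.P254.OrliczBalls

open Vale.Agent.P254 (isoConst IsSimplex)

theorem result (n : ℕ) (hn : 2 ≤ n) (φ : Fin n → ℝ → ℝ)
    (hcont : ∀ i, ContinuousOn (φ i) (Set.Ici 0))
    (hconv : ∀ i, ConvexOn ℝ (Set.Ici 0) (φ i))
    (hmono : ∀ i, MonotoneOn (φ i) (Set.Ici 0))
    (hzero : ∀ i, φ i 0 = 0)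
    (hpos : ∀ i, ∃ x, 0 < x ∧ 0 < φ i x)
    (T : (Fin n → ℝ) ≃ᵃ[ℝ] (Fin n → ℝ)) (S : Set (Fin n → ℝ)) (hS : IsSimplex S) :
    isoConst (T '' {x : Fin n → ℝ | ∑ i, φ i |x i| ≤ 1}) ^ 2 ≤
        ((n : ℝ) + 1) / (8 * ((n : ℝ) + 2)) ∧
      isoConst (T '' {x : Fin n → ℝ | ∑ i, φ i |x i| ≤ 1}) < isoConst S :=
  Vale.Agent.P254o.fin n hn ⟨hcont, hconv, hmono, hzero, hpos⟩ T S hS

end Vale.Agent.Results.P254.OrliczBalls
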