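import Vale.Agent.P254r.Main

/-!
P254, strong isotropic constant conjecture: every affine image of a convex body of revolution in
dimension `m + 1 ≥ 3` has isotropic constant strictly smaller than a simplex.
-/

namespace Vale.Agent.Results.P254.Revolution

open Vale.Agent.P254

theorem result (m : ℕ) (hm : 2 ≤ m) {K : Set (Fin (m + 1) → ℝ)} (hK : Convex ℝ K)
    (hc : IsCompact K) (h0 : (interior K).Nonempty)
    (hr : ∀ x ∈ K, ∀ y : Fin (m + 1) → ℝ, y 0 = x 0 →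
      ∑ i : Fin m, y i.succ ^ 2 = ∑ i : Fin m, x i.succ ^ 2 → y ∈ K)
    (T : (Fin (m + 1) → ℝ) ≃ᵃ[ℝ] (Fin (m + 1) → ℝ)) {S : Set (Fin (m + 1) → ℝ)}
    (hS : IsSimplex S) :
    isoConst (T '' K) ^ (2 * (m + 1)) ≤
        (2 * ((m : ℝ) + 2) / ((m : ℝ) + 3) - 24 / 25) / (4 * 12 ^ m) ∧
      isoConst (T '' K) < isoConst S :=
  ⟨Vale.Agent.P254r.quant m hm hK hc h0 hr T, Vale.Agent.P254r.main m hm hK hc h0 hr T hS⟩

end Vale.Agent.Results.P254.Revolution
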